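import Vale.Agent.P160R.Odlyzko
import Vale.Agent.P160R.SmallEig.Count
import Vale.Agent.P160R.Points.Split

/-!
# A fixed subspace is rarely very degenerate
-/

namespace Vale.Agent.P160R.Exclude

open Finset Matrix
open scoped Classical

/-- A bound conditional on the signs outside an injective family of pairs passes to the whole. -/
lemma card_le_of_fibres {α β : Type*} [Fintype α] [DecidableEq α] [Fintype β] [DecidableEq β]
    (e : β ↪ α) (E : Finset (α → Bool)) (b : ℝ)
    (h : ∀ ω₀ : α → Bool, (((univ : Finset (β → Bool)).filter fun (x : β → Bool) =>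
      ∃ ω ∈ E, (∀ a, a ∉ univ.map e → ω a = ω₀ a) ∧ ∀ i, ω (e i) = x i).card : ℝ)
        ≤ b * 2 ^ Fintype.card β) :
    (E.card : ℝ) ≤ b * 2 ^ Fintype.card α := by
  set K := (univ : Finset β).map e with hK
  have hKc : K.card = Fintype.card β := by rw [hK, card_map, card_univ]
  have h1 : E.card * 2 ^ K.card = ∑ ω₀ : α → Bool,
      (E.filter fun (ω : α → Bool) => ∀ a, a ∉ K → ω₀ a = ω a).card := by
    simp only [card_filter]
    rw [sum_comm, ← smul_eq_mul, ← sum_const]
    exact sum_congr rfl fun ω _ => by rw [← card_filter, SmallEig.card_agree K ω]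
  have h2 : ∀ ω₀ : α → Bool,
      ((E.filter fun (ω : α → Bool) => ∀ a, a ∉ K → ω₀ a = ω a).card : ℝ)
        ≤ b * 2 ^ Fintype.card β := fun ω₀ => by
    refine le_trans (Nat.cast_le.2 ?_) (h ω₀)
    refine card_le_card_of_injOn (fun ω i => ω (e i)) (fun ω hω => ?_) fun ω hω ω' hω' he => ?_
    · obtain ⟨hE, hag⟩ := mem_filter.1 hω
      exact mem_filter.2 ⟨mem_univ _, ω, hE, fun a ha => (hag a ha).symm, fun i => rfl⟩
    · funext a
      by_cases ha : a ∈ K
      · obtain ⟨i, -, rfl⟩ := mem_map.1 ha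
        exact congrFun he i
      · rw [← (mem_filter.1 hω).2 a ha, (mem_filter.1 hω').2 a ha]
  have h3 : (E.card : ℝ) * 2 ^ K.card ≤ b * 2 ^ Fintype.card α * 2 ^ K.card := by
    have h4 : ((E.card * 2 ^ K.card : ℕ) : ℝ) ≤ ∑ _ω₀ : α → Bool, b * 2 ^ Fintype.card β := by
      rw [h1, Nat.cast_sum]
      exact sum_le_sum fun ω₀ _ => h2 ω₀
    rw [sum_const, card_univ, Fintype.card_fun, Fintype.card_bool, nsmul_eq_mul] at h4
    push_cast at h4
    rw [hKc] at h4 ⊢
    linarith
  exact le_of_mul_le_mul_right h3 (by positivity)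

variable {ι : Type} [Fintype ι] [DecidableEq ι]

/-- A subspace is a graph over some set of coordinates. -/
lemma exists_graph (V : Submodule ℝ (ι → ℝ)) :
    ∃ (S : Finset ι) (Φ : Matrix ι S ℝ), (∀ i j : S, Φ i j = if i = j then 1 else 0) ∧
      (∀ y : S → ℝ, Φ *ᵥ y ∈ V) ∧ ∀ v ∈ V, Φ *ᵥ (fun i : S => v i) = v := by
  obtain ⟨S, hS, hinj⟩ := Points.exists_coord _ V le_rfl
  set g : V →ₗ[ℝ] (S → ℝ) := (LinearMap.funLeft ℝ ℝ fun i : S => (i : ι)).comp V.subtype
  have hgi : Function.Injective g := by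
    rw [← LinearMap.ker_eq_bot, LinearMap.ker_eq_bot']
    intro v hv
    exact Subtype.ext (hinj v v.2 fun i hi => congrFun hv ⟨i, hi⟩)
  have hd : Module.finrank ℝ V = Module.finrank ℝ (S → ℝ) := by
    have := LinearMap.finrank_le_finrank_of_injective hgi
    rw [Module.finrank_fintype_fun_eq_card, Fintype.card_coe] at this ⊢
    omega
  set e := LinearMap.linearEquivOfInjective g hgi hd
  set Φ : Matrix ι S ℝ := Matrix.of fun i j => (e.symm (Pi.single j 1) : ι → ℝ) i
  have hΦ : ∀ y : S → ℝ, Φ *ᵥ y = (e.symm y : ι → ℝ) := fun y => by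
    have e1 : y = ∑ j, y j • Pi.single j (1 : ℝ) := pi_eq_sum_univ' y
    conv_rhs => rw [e1]
    rw [map_sum, Submodule.coe_sum]
    funext i
    simp [Φ, Matrix.mulVec, dotProduct, Finset.sum_apply, mul_comm]
  refine ⟨S, Φ, fun i j => ?_, fun y => by rw [hΦ]; exact SetLike.coe_mem _, fun v hv => ?_⟩
  · have h : (e.symm (Pi.single j 1) : ι → ℝ) (i : ι) = (Pi.single j 1 : S → ℝ) i :=
      congrFun (e.apply_symm_apply (Pi.single j 1)) i
    rw [Pi.single_apply] at h
    simpa only [Φ, Matrix.of_apply] using h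
  · rw [hΦ]
    have : e.symm (fun i : S => v i) = ⟨v, hv⟩ := e.symm_apply_eq.2 (by ext i; rfl)
    rw [this]

/-- The event that the form has a large radical on a fixed subspace. -/
theorem Pr_radical_le (V : Submodule ℝ (ι → ℝ)) (c : ℕ) :
    Pr (fun ω : Sym2 ι → Bool => ∃ K : Submodule ℝ (ι → ℝ), c ≤ Module.finrank ℝ K ∧ K ≤ V ∧
        ∀ y ∈ K, ∀ v ∈ V, v ⬝ᵥ (symM ℝ ω *ᵥ y) = 0) ≤
      (2 : ℝ) ^ Fintype.card ι * (1 / 2 : ℝ) ^ c.choose 2 := by
  obtain ⟨S, Φ, hΦ1, hΦV, hVΦ⟩ := exists_graph V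
  set B0 : (Sym2 ι → Bool) → Matrix ι ι ℝ := fun ω => Matrix.of fun i l =>
    if i ∈ S ∧ l ∈ S then 0 else symM ℝ ω i l with hB0
  have hM : ∀ ω : Sym2 ι → Bool, Φᵀ * symM ℝ ω * Φ = Φᵀ * B0 ω * Φ +
      Matrix.of fun i j => if restrictSigns (fun i : S => (i : ι)) ω s(i, j) then (1 : ℝ) else -1 := by
    intro ω
    set E : Matrix ι ι ℝ := Matrix.of fun i l => if i ∈ S ∧ l ∈ S then symM ℝ ω i l else 0
    have e : symM ℝ ω = B0 ω + E := by
      ext i l; by_cases h : i ∈ S ∧ l ∈ S <;> simp [B0, E, h]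
    rw [e, Matrix.mul_add, Matrix.add_mul]
    congr 1
    set P : Matrix S ι ℝ := Matrix.of fun j i => if (j : ι) = i then 1 else 0
    have hP : P * Φ = 1 := by
      ext i j
      simp [P, Matrix.mul_apply, hΦ1, Matrix.one_apply]
    have hE : E = Pᵀ * (symM ℝ ω).submatrix (fun i : S => (i : ι)) (fun i : S => (i : ι)) * P := by
      ext i l
      simp only [Matrix.mul_apply, transpose_apply, P, Matrix.of_apply, submatrix_apply, E]
      by_cases h : i ∈ S ∧ l ∈ S
      · rw [if_pos h, Finset.sum_eq_single (⟨l, h.2⟩ : S), Finset.sum_eq_single (⟨i, h.1⟩ : S)]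
        · simp
        · intro b _ hb
          have : (b : ι) ≠ i := fun he => hb (Subtype.ext he)
          simp [this]
        · simp
        · intro b _ hb
          have : (b : ι) ≠ l := fun he => hb (Subtype.ext he)
          simp [this]
        · simp
      · rw [if_neg h]
        refine (Finset.sum_eq_zero fun b _ => ?_).symm
        by_cases hbl : (b : ι) = l
        · rw [Finset.sum_eq_zero (fun a _ => ?_), zero_mul]
          have : (a : ι) ≠ i := fun ha => h ⟨ha ▸ a.2, hbl ▸ b.2⟩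
          simp [this]
        · simp [hbl]
    calc Φᵀ * E * Φ = (P * Φ)ᵀ * (symM ℝ ω).submatrix (fun i : S => (i : ι))
          (fun i : S => (i : ι)) * (P * Φ) := by
          rw [hE, transpose_mul]; simp only [Matrix.mul_assoc]
      _ = _ := by
          rw [hP, transpose_one, Matrix.one_mul, Matrix.mul_one, ← symM_restrict]
          rfl
  set e2 : Sym2 S ↪ Sym2 ι :=
    ⟨Sym2.map fun i : S => (i : ι), Sym2.map.injective Subtype.val_injective⟩
  rw [Pr_eq, div_le_iff₀ (by positivity)]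
  refine card_le_of_fibres e2 _ _ fun ω₀ => ?_
  set F := Φᵀ * B0 ω₀ * Φ
  have hFs : F.IsSymm := by
    have : (B0 ω₀)ᵀ = B0 ω₀ := by
      ext i l
      simp [B0, symM, Sym2.eq_swap, and_comm]
    simp [F, Matrix.IsSymm, transpose_mul, Matrix.mul_assoc, this]
  have h := corank_shift_le (ι := S) (K := ℝ) (a := 1) (b := -1) (by norm_num) F hFs c
  rw [Pr_eq, div_le_iff₀ (by positivity), Fintype.card_coe] at h
  refine le_trans (Nat.cast_le.2 (card_le_card ?_)) (h.trans ?_)
  · intro x hx
    obtain ⟨ω, hω, hag, hx'⟩ := (mem_filter.1 hx).2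
    obtain ⟨K, hKc, hKV, hKrad⟩ := (mem_filter.1 hω).2
    simp only [mem_filter, mem_univ, true_and]
    have hB : B0 ω = B0 ω₀ := by
      ext i l
      by_cases hil : i ∈ S ∧ l ∈ S
      · simp [B0, hil]
      · have : s(i, l) ∉ (univ : Finset (Sym2 S)).map e2 := by
          intro hmem
          obtain ⟨p, -, hp⟩ := mem_map.1 hmem
          induction p using Sym2.ind with
          | h a b =>
            simp only [e2, Function.Embedding.coeFn_mk, Sym2.map_mk, Sym2.eq_iff] at hp
            rcases hp with ⟨rfl, rfl⟩ | ⟨rfl, rfl⟩ <;> exact hil ⟨Subtype.coe_prop _, Subtype.coe_prop _⟩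
        simp only [B0, hil, if_false, Matrix.of_apply, symM]
        rw [hag _ this]
    have hxe : x = restrictSigns (fun i : S => (i : ι)) ω := funext fun p => (hx' p).symm
    set M := F + Matrix.of fun i j : S => if x s(i, j) then (1 : ℝ) else -1 with hMdef
    have hMe : M = Φᵀ * symM ℝ ω * Φ := by rw [hM ω, hB, hMdef, hxe]
    set g : K →ₗ[ℝ] (S → ℝ) := (LinearMap.funLeft ℝ ℝ fun i : S => (i : ι)).comp K.subtype
    have hgi : Function.Injective g := fun a b hab => by
      have ha := hVΦ _ (hKV a.2)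
      have hb := hVΦ _ (hKV b.2)
      refine Subtype.ext ?_
      rw [← ha, ← hb]
      exact congrArg (Φ *ᵥ ·) hab
    have hker : LinearMap.range g ≤ LinearMap.ker M.mulVecLin := by
      rintro _ ⟨a, rfl⟩
      rw [LinearMap.mem_ker, mulVecLin_apply, hMe, ← mulVec_mulVec, ← mulVec_mulVec,
        show Φ *ᵥ g a = (a : ι → ℝ) from hVΦ _ (hKV a.2)]
      funext j
      have := hKrad a a.2 _ (hΦV (Pi.single j 1))
      simpa [Matrix.mulVec, dotProduct, Pi.single_apply] using this
    have h1 := Submodule.finrank_mono hker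
    rw [LinearMap.finrank_range_of_inj hgi] at h1
    have h2 := LinearMap.finrank_range_add_finrank_ker M.mulVecLin
    rw [Module.finrank_fintype_fun_eq_card] at h2
    simp only [Fintype.card_coe] at h2 ⊢
    change M.rank + c ≤ S.card
    have h3 : M.rank = Module.finrank ℝ (LinearMap.range M.mulVecLin) := rfl
    omega
  · gcongr
    exact_mod_cast (Nat.choose_le_two_pow S.card c).trans
      (Nat.pow_le_pow_right two_pos (card_le_univ S))

end Vale.Agent.P160R.Exclude
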